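import Vale.Agent.P283.Z647.Kron

/-!
# P283R, block LP: density of the dual lattices, vertices, attained minima
-/

namespace Vale.Agent.P283R.Lp

open Filter Finset
open Vale.Agent.P283.H647 (limLat dickson int_farkas dirichlet ultra_finite box_int)

variable {ι : Type} [Fintype ι]

/-- the dual lattices become dense in the annihilator of the limit lattice -/
theorem dens (U : Ultrafilter ℕ) (M : ℕ → AddSubgroup (ι → ℤ)) (z : ι → ℝ)
    (hz : ∀ m ∈ limLat U M, ∑ j, z j * m j = 0) {η : ℝ} (hη : 0 < η) :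
    ∀ᶠ n in U, ∃ y : ι → ℝ, (∀ m ∈ M n, ∃ k : ℤ, ∑ j, y j * m j = k) ∧
      (∀ m ∈ limLat U M, ∑ j, y j * m j = 0) ∧ ∀ j, |y j - z j| < η := by
  classical
  obtain ⟨S, hS⟩ : (AddSubgroup.toIntSubmodule (limLat U M)).FG := IsNoetherian.noetherian _
  have hSm : ∀ m ∈ S, m ∈ limLat U M := fun m hm => by
    have : m ∈ AddSubgroup.toIntSubmodule (limLat U M) := hS ▸ Submodule.subset_span hm
    exact this
  let B : ℝ := ∑ m ∈ S, ∑ j, |(m j : ℝ)|
  have hB : 0 ≤ B := sum_nonneg fun m _ => sum_nonneg fun j _ => abs_nonneg _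
  have hη' : 0 < min η (1 / (B + 1)) := lt_min hη (by positivity)
  obtain ⟨K, hK⟩ := P283.Z647.kron' (ι := ι) hη'
  have h1 := ultra_finite U (fun n (m : ι → ℤ) => m ∈ M n) _ (box_int (ι := ι) K)
  have h2 : ∀ᶠ n in U, ∀ m ∈ S, m ∈ M n := (S.eventually_all).2 hSm
  filter_upwards [h1, h2] with n h1 h2
  obtain ⟨y, hy, hd⟩ := hK (M n) z fun m hm hb => ⟨0, by
    rw [hz m ((h1 m hb).1 hm)]; simp⟩
  refine ⟨y, hy, fun m hm => ?_, fun j => (hd j).trans_le (min_le_left _ _)⟩
  have h3 : ∀ m ∈ S, ∑ j, y j * m j = 0 := fun m hm => by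
    obtain ⟨k, hk⟩ := hy m (h2 m hm)
    have e : (k : ℝ) = ∑ j, (y j - z j) * m j := by
      simp only [sub_mul, sum_sub_distrib, hz m (hSm m hm), hk, sub_zero]
    have l : |(k : ℝ)| < 1 := by
      rw [e]
      calc _ ≤ ∑ j, |(y j - z j) * m j| := abs_sum_le_sum_abs _ _
        _ ≤ ∑ j, 1 / (B + 1) * |(m j : ℝ)| := sum_le_sum fun j _ => by
          rw [abs_mul]
          exact mul_le_mul_of_nonneg_right ((hd j).le.trans (min_le_right _ _)) (abs_nonneg _)
        _ = 1 / (B + 1) * ∑ j, |(m j : ℝ)| := (mul_sum _ _ _).symm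
        _ ≤ 1 / (B + 1) * B := mul_le_mul_of_nonneg_left
          (single_le_sum (f := fun m : ι → ℤ => ∑ j, |(m j : ℝ)|)
            (fun m _ => sum_nonneg fun j _ => abs_nonneg _) hm) (by positivity)
        _ < 1 := by rw [one_div, inv_mul_lt_iff₀ (by positivity)]; linarith
    have : k = 0 := by
      have : |k| < 1 := by exact_mod_cast l
      exact Int.abs_lt_one_iff.1 this
    rw [hk, this]; simp
  have hm' : m ∈ Submodule.span ℤ (S : Set (ι → ℤ)) := hS ▸ hm
  clear hm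
  induction hm' using Submodule.span_induction with
  | mem x hx => exact h3 x hx
  | zero => simp
  | add a b _ _ ha hb => simp only [Pi.add_apply, Int.cast_add, mul_add, sum_add_distrib, ha, hb,
      add_zero]
  | smul c a _ ha =>
    have : ∑ j, y j * ((c • a) j : ℤ) = c * ∑ j, y j * a j := by
      rw [mul_sum]; exact sum_congr rfl fun j _ => by simp; ring
    rw [this, ha, mul_zero]

/-- for a lattice of finite index the dual vectors are rational -/
theorem dual_int [DecidableEq ι] {M : AddSubgroup (ι → ℤ)} {r : ℤ} (hr : ∀ u : ι → ℤ, r • u ∈ M)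
    {y : ι → ℝ} (hy : ∀ m ∈ M, ∃ k : ℤ, ∑ j, y j * m j = k) :
    ∃ a : ι → ℤ, ∀ j, r * y j = a j := by
  have : ∀ j, ∃ k : ℤ, r * y j = k := fun j => by
    obtain ⟨k, hk⟩ := hy _ (hr (Pi.single j 1))
    refine ⟨k, ?_⟩
    rw [← hk, sum_eq_single j]
    · simp [mul_comm]
    · intro b _ hb; simp [Pi.single_eq_of_ne hb]
    · simp
  choose a ha using this
  exact ⟨a, ha⟩

theorem mem_of_eq {X : Type} {L : AddSubgroup (X → ℤ)} {a b : X → ℤ} (h : a ∈ L)
    (e : ∀ j, b j = a j) : b ∈ L := (funext e : b = a) ▸ h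

/-- the vertices of the polyhedron `{c ≥ 0, c - κ ∈ L ⊗ ℝ}` and the dual linear program -/
theorem vert (L : AddSubgroup (ι → ℤ)) (κ : ι → ℤ) : ∃ (n : ℕ) (V : Finset (ι → ℕ)), 0 < n ∧
    (∀ c ∈ V, (fun j => (c j : ℤ) - n * κ j) ∈ L) ∧
    ∀ (w : ι → ℝ) (s : ℝ), (∀ j, 0 ≤ w j) → (∀ c ∈ V, n * s ≤ ∑ j, c j * w j) →
      ∃ ζ : ι → ℝ, (∀ m ∈ L, ∑ j, ζ j * m j = 0) ∧ (∀ j, 0 ≤ w j + ζ j) ∧
        s ≤ -∑ j, ζ j * κ j := by
  classical
  let Λ : AddSubgroup (Option ι → ℤ) :=
    { carrier := {x | (fun j => x (some j) - x none * κ j) ∈ L}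
      zero_mem' := mem_of_eq L.zero_mem fun j => by simp
      add_mem' := fun {a b} ha hb => mem_of_eq (L.add_mem ha hb) fun j => by simp; ring
      neg_mem' := fun {a} ha => mem_of_eq (L.neg_mem ha) fun j => by simp; ring }
  obtain ⟨A, hA, hA'⟩ := dickson {x : Option ι → ℕ | (fun o => (x o : ℤ)) ∈ Λ ∧ 0 < x none}
  let n : ℕ := ∏ x ∈ A, x none
  have hn : 0 < n := prod_pos fun x hx => (hA x hx).2
  have hd : ∀ x ∈ A, x none ∣ n := fun x hx => dvd_prod_of_mem _ hx
  refine ⟨n, A.image fun x j => n / x none * x (some j), hn, fun c hc => ?_, fun w s hw h => ?_⟩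
  · obtain ⟨x, hx, rfl⟩ := mem_image.1 hc
    obtain ⟨q, hq⟩ := hd x hx
    have h1 : (fun j => (x (some j) : ℤ) - x none * κ j) ∈ L := (hA x hx).1
    have h2 := L.nsmul_mem h1 q
    refine mem_of_eq h2 fun j => ?_
    rw [hq, Nat.mul_div_cancel_left _ (hA x hx).2]
    simp; ring
  have g : ∀ x ∈ A, x none * s ≤ ∑ j, x (some j) * w j := fun x hx => by
    obtain ⟨q, hq⟩ := hd x hx
    have h1 := h _ (mem_image_of_mem _ hx)
    have hq0 : 0 < q := Nat.pos_of_ne_zero fun e => by rw [e, mul_zero] at hq; omega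
    simp only [hq, Nat.mul_div_cancel_left _ (hA x hx).2, Nat.cast_mul, mul_assoc, ← mul_sum] at h1
    have : (0 : ℝ) < q := by exact_mod_cast hq0
    refine le_of_mul_le_mul_left ?_ this
    linarith
  have all : ∀ (k : ℕ) (x : Option ι → ℕ), x none = k → (fun o => (x o : ℤ)) ∈ Λ →
      x none * s ≤ ∑ j, x (some j) * w j := fun k => by
    induction k using Nat.strong_induction_on with
    | _ k ih =>
      intro x hk hx
      rcases Nat.eq_zero_or_pos (x none) with h0 | h0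
      · rw [h0, Nat.cast_zero, zero_mul]
        exact sum_nonneg fun j _ => mul_nonneg (Nat.cast_nonneg _) (hw j)
      obtain ⟨β, hβ, hle⟩ := hA' x ⟨hx, h0⟩
      have h1 := ih (x none - β none) (by have := (hA β hβ).2; omega) (fun o => x o - β o) rfl
        (mem_of_eq (Λ.sub_mem hx (hA β hβ).1) fun o => by simp [Nat.cast_sub (hle o)])
      have h2 := g β hβ
      simp only [Nat.cast_sub (hle _), sub_mul, sum_sub_distrib] at h1
      linarith
  obtain ⟨y, hy, hy'⟩ := int_farkas Λ (fun o => o.elim (-s) w) fun x hx h0 => by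
    have h1 := all _ (fun o => (x o).toNat) rfl (mem_of_eq hx fun o => by simp [h0 o])
    have e : ∀ o, (((x o).toNat : ℕ) : ℝ) = x o := fun o => by
      rw [← Int.cast_natCast, Int.toNat_of_nonneg (h0 o)]
    simp only [e] at h1
    rw [Fintype.sum_option]
    simp only [Option.elim]
    linarith
  refine ⟨fun j => -y (some j), fun m hm => ?_, fun j => ?_, ?_⟩
  · have h1 := hy (fun o => o.elim 0 m) (mem_of_eq (L := L) hm fun j => by simp)
    rw [Fintype.sum_option] at h1
    simp only [Option.elim, Int.cast_zero, zero_mul, zero_add] at h1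
    simp only [neg_mul, sum_neg_distrib, mul_comm (y _), h1, neg_zero]
  · have := hy' (some j); simp only [Option.elim] at this; linarith
  · have h1 := hy (fun o => o.elim 1 κ) (mem_of_eq (L := L) L.zero_mem fun j => by simp)
    rw [Fintype.sum_option] at h1
    have h2 := hy' none
    simp only [Option.elim, Int.cast_one, one_mul] at h1 h2
    simp only [neg_mul, sum_neg_distrib, mul_comm (y _), neg_neg]
    linarith

/-- integral points are dense in a rational cone -/
theorem cone_real {κ : Type} [Fintype κ] (T : ι → κ → ℤ) (l : κ → ℝ)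
    (h : ∀ u : κ → ℤ, (∀ i, 0 ≤ ∑ k, T i k * u k) → 0 ≤ ∑ k, l k * u k) (u : κ → ℝ)
    (hu : ∀ i, 0 ≤ ∑ k, T i k * u k) : 0 ≤ ∑ k, l k * u k := by
  by_contra hn
  push Not at hn
  let B : ℝ := ∑ i, ∑ k, |(T i k : ℝ)|
  let C : ℝ := ∑ k, |l k|
  have hB : 0 ≤ B := sum_nonneg fun m _ => sum_nonneg fun j _ => abs_nonneg _
  have hC : 0 ≤ C := sum_nonneg fun j _ => abs_nonneg _
  set e := -∑ k, l k * u k with he
  have he0 : 0 < e := by linarith
  have hδ : 0 < min (1 / (B + 1)) (e / (C + 1)) := lt_min (by positivity) (by positivity)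
  obtain ⟨p, hp, z, hz⟩ := dirichlet u hδ
  have est : ∀ (a : κ → ℝ) (δ : ℝ), (∀ k, |p * u k - z k| ≤ δ) →
      |p * ∑ k, a k * u k - ∑ k, a k * z k| ≤ δ * ∑ k, |a k| := fun a δ hd => by
    rw [mul_sum, ← sum_sub_distrib, mul_sum]
    refine (abs_sum_le_sum_abs _ _).trans (sum_le_sum fun k _ => ?_)
    rw [show p * (a k * u k) - a k * z k = (p * u k - z k) * a k by ring, abs_mul]
    exact mul_le_mul_of_nonneg_right (hd k) (abs_nonneg _)
  have hp1 : (1 : ℝ) ≤ p := by exact_mod_cast hp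
  have h1 := h z fun i => by
    have h2 := (abs_le.1 (est (fun k => T i k) _ fun k => (hz k).le.trans (min_le_left _ _))).2
    have h3 : 1 / (B + 1) * ∑ k, |(T i k : ℝ)| < 1 :=
      calc _ ≤ 1 / (B + 1) * B := mul_le_mul_of_nonneg_left
            (single_le_sum (f := fun i => ∑ k, |(T i k : ℝ)|)
              (fun m _ => sum_nonneg fun j _ => abs_nonneg _) (mem_univ i)) (by positivity)
        _ < 1 := by rw [one_div, inv_mul_lt_iff₀ (by positivity)]; linarith
    have h4 : 0 ≤ p * ∑ k, (T i k : ℝ) * u k := mul_nonneg (by linarith) (hu i)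
    have h5 : (-1 : ℝ) < ((∑ k, T i k * z k : ℤ) : ℝ) := by push_cast; linarith
    have : (-1 : ℤ) < ∑ k, T i k * z k := by exact_mod_cast h5
    omega
  have h2 := (abs_le.1 (est l _ fun k => (hz k).le.trans (min_le_right _ _))).1
  have h3 : e / (C + 1) * C < e := by
    rw [div_mul_eq_mul_div, div_lt_iff₀ (by positivity)]; nlinarith
  have h4 : p * ∑ k, l k * u k ≤ -e := by nlinarith
  linarith

/-- the least ratio of two integral forms on a rational cone is attained -/
theorem lp_min {κ : Type} [Fintype κ] (T : ι → κ → ℤ) (m s : κ → ℤ)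
    (hm : ∀ u : κ → ℤ, (∀ i, 0 ≤ ∑ k, T i k * u k) → 0 ≤ ∑ k, m k * u k)
    (hs : ∀ u : κ → ℤ, (∀ i, 0 ≤ ∑ k, T i k * u k) → 0 < ∑ k, m k * u k → 0 < ∑ k, s k * u k)
    (ex : ∃ u : κ → ℤ, (∀ i, 0 ≤ ∑ k, T i k * u k) ∧ 0 < ∑ k, m k * u k) :
    ∃ u₀ : κ → ℤ, (∀ i, 0 ≤ ∑ k, T i k * u₀ k) ∧ 0 < ∑ k, m k * u₀ k ∧
      ∀ u : κ → ℝ, (∀ i, 0 ≤ ∑ k, T i k * u k) →
        (∑ k, s k * u₀ k : ℤ) * ∑ k, m k * u k ≤ (∑ k, m k * u₀ k : ℤ) * ∑ k, s k * u k := by
  classical
  let ev : (κ → ℤ) → (κ → ℤ) → ℤ := fun a u => ∑ k, a k * u k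
  have sub : ∀ a u v, ev a (u - v) = ev a u - ev a v := fun a u v => by
    simp only [ev, Pi.sub_apply, mul_sub, sum_sub_distrib]
  have lin : ∀ a u v (c : ℤ), ev a (u + c • v) = ev a u + c * ev a v := fun a u v c => by
    simp only [ev, Pi.add_apply, Pi.smul_apply, smul_eq_mul, mul_add, sum_add_distrib, mul_sum]
    congr 1; exact sum_congr rfl fun k _ => by ring
  let φ : (κ → ℤ) → Option ι → ℕ := fun u o => (ev (o.elim m T) u).toNat
  obtain ⟨A, hA, hA'⟩ := dickson (φ '' {u | (∀ i, 0 ≤ ev (T i) u) ∧ 0 < ev m u})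
  choose! g hg hg' using hA
  obtain ⟨u₁, h1, h1'⟩ := ex
  obtain ⟨β₁, hβ₁, -⟩ := hA' _ ⟨u₁, ⟨h1, h1'⟩, rfl⟩
  obtain ⟨β₀, hβ₀, hmin⟩ := exists_min_image A
    (fun β => (ev s (g β) : ℝ) / ev m (g β)) ⟨β₁, hβ₁⟩
  have p0 : (0 : ℝ) < ev m (g β₀) := by exact_mod_cast (hg β₀ hβ₀).2
  have all : ∀ (k : ℕ) (u : κ → ℤ), ev m u = k → (∀ i, 0 ≤ ev (T i) u) →
      ev s (g β₀) * ev m u ≤ ev m (g β₀) * ev s u := fun k => by
    induction k using Nat.strong_induction_on with
    | _ k ih =>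
      intro u hk hu
      rcases Nat.eq_zero_or_pos k with h0 | h0
      · have e : ev m u = 0 := by rw [hk, h0]; rfl
        rw [e, mul_zero]
        refine mul_nonneg (hg β₀ hβ₀).2.le ?_
        by_contra hn
        have h2 := hs (u₁ + (ev s u₁) • u) (fun i => by
          have := lin (T i) u₁ u (ev s u₁)
          have a1 := mul_nonneg (hs u₁ h1 h1').le (hu i)
          have a2 := h1 i
          simp only [ev] at this a1 ⊢
          omega) (by
          have := lin m u₁ u (ev s u₁)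
          rw [e, mul_zero, add_zero] at this
          exact lt_of_lt_of_eq h1' this.symm)
        have h3 := lin s u₁ u (ev s u₁)
        have h4 : 0 < ev s u₁ := hs u₁ h1 h1'
        have h5 : 0 < ev s (u₁ + (ev s u₁) • u) := h2
        rw [h3] at h5
        nlinarith
      obtain ⟨β, hβ, hle⟩ := hA' _ ⟨u, ⟨hu, by rw [hk]; exact_mod_cast h0⟩, rfl⟩
      rw [← hg' β hβ] at hle
      obtain ⟨b1, b2⟩ := hg β hβ
      have l0 : ev m (g β) ≤ ev m u := by
        have := hle none
        simp only [φ, Option.elim] at this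
        omega
      have h2 := ih (ev m (u - g β)).toNat (by rw [sub]; omega) (u - g β)
        (by rw [sub]; omega) fun i => by
          have := hle (some i)
          have := hu i
          have := b1 i
          simp only [φ, Option.elim] at *
          rw [sub]; omega
      have h3 := hmin β hβ
      have p1 : (0 : ℝ) < ev m (g β) := by exact_mod_cast b2
      rw [div_le_div_iff₀ p0 p1] at h3
      have h4 : ev s (g β₀) * ev m (g β) ≤ ev s (g β) * ev m (g β₀) := by exact_mod_cast h3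
      rw [sub, sub] at h2
      nlinarith
  refine ⟨g β₀, (hg β₀ hβ₀).1, (hg β₀ hβ₀).2, fun u hu => ?_⟩
  have := cone_real T (fun k => (ev m (g β₀) * s k - ev s (g β₀) * m k : ℤ)) (fun v hv => by
    have h2 := all (ev m v).toNat v (Int.toNat_of_nonneg (hm v hv)).symm hv
    have h3 : (0 : ℤ) ≤ ∑ k, (ev m (g β₀) * s k - ev s (g β₀) * m k) * v k := by
      simp only [sub_mul, sum_sub_distrib, mul_assoc, ← mul_sum]
      exact sub_nonneg.2 h2
    exact_mod_cast h3) u hu
  simp only [Int.cast_sub, Int.cast_mul, sub_mul, sum_sub_distrib, mul_assoc, ← mul_sum] at this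
  exact sub_nonneg.1 this

/-- the least value of `max g / min d` on the closed orthant is positive and attained at an
integral point -/
theorem att {α J σ : Type} [Fintype α] [Fintype J] [Fintype σ] (g : α → σ → ℤ) (d : J → σ → ℕ)
    (pos : ∀ w : σ → ℕ, (∀ j, 0 < ∑ k, d j k * w k) → ∃ a, 0 < ∑ k, g a k * w k)
    (hd : ∀ j, d j ≠ 0) : ∃ (w₀ : σ → ℕ) (c : ℝ), 0 < c ∧ (∀ j, 0 < ∑ k, d j k * w₀ k) ∧
      (∀ a j, ((∑ k, g a k * w₀ k : ℤ) : ℝ) ≤ c * (∑ k, d j k * w₀ k : ℕ)) ∧
      ∀ (w : σ → ℝ) (m : ℝ), (∀ k, 0 ≤ w k) → 0 ≤ m → (∀ j, m ≤ ∑ k, d j k * w k) →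
        ∃ a, c * m ≤ ∑ k, g a k * w k := by
  classical
  let T : (σ ⊕ Unit) ⊕ J ⊕ α → Option (Option σ) → ℤ := Sum.elim
    (Sum.elim (fun k => Pi.single (some (some k)) 1) fun _ => Pi.single (some none) 1)
    (Sum.elim (fun j o => o.elim 0 fun o => o.elim (-1) fun k => d j k)
      fun a o => o.elim 1 fun o => o.elim 0 fun k => -g a k)
  have key : ∀ (R : Type) [CommRing R] [LinearOrder R] [IsStrictOrderedRing R]
      (u : Option (Option σ) → R), (∀ i, 0 ≤ ∑ k, (T i k : R) * u k) ↔ (∀ k, 0 ≤ u (some (some k))) ∧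
        0 ≤ u (some none) ∧ (∀ j, u (some none) ≤ ∑ k, (d j k : R) * u (some (some k))) ∧
        ∀ a, ∑ k, (g a k : R) * u (some (some k)) ≤ u none := fun R _ _ _ u => by
    simp only [Sum.forall, T, Sum.elim_inl, Sum.elim_inr, Pi.single_apply, Int.cast_ite,
      Int.cast_one, Int.cast_zero, ite_mul, one_mul, zero_mul, sum_ite_eq', mem_univ, if_true,
      forall_const, and_assoc]
    simp [Fintype.sum_option]
  have one : ∀ j, 0 < ∑ k, d j k * 1 := fun j => by
    obtain ⟨k, hk⟩ := Function.ne_iff.1 (hd j)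
    exact sum_pos' (fun _ _ => Nat.zero_le _) ⟨k, mem_univ k, by simpa [pos_iff_ne_zero] using hk⟩
  have sg : ∀ (R : Type) [CommRing R] (o : Option (Option σ)) (u : Option (Option σ) → R),
      ∑ k, (((Pi.single o 1 : Option (Option σ) → ℤ) k : ℤ) : R) * u k = u o := fun R _ o u => by
    simp [Pi.single_apply]
  have sz := sg ℤ
  have kz := key ℤ
  simp only [Int.cast_id] at sz kz
  have hs : ∀ u : Option (Option σ) → ℤ, (∀ i, 0 ≤ ∑ k, T i k * u k) → 0 < u (some none) →
      0 < u none := fun u hu h0 => by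
    obtain ⟨h1, -, h3, h4⟩ := (kz u).1 hu
    obtain ⟨a, ha⟩ := pos (fun k => (u (some (some k))).toNat) fun j => by
      have := h0.trans_le (h3 j)
      have e : ((∑ k, d j k * (u (some (some k))).toNat : ℕ) : ℤ) =
          ∑ k, (d j k : ℤ) * u (some (some k)) := by
        push_cast; exact sum_congr rfl fun k _ => by rw [Int.toNat_of_nonneg (h1 k)]
      omega
    simp only [Int.toNat_of_nonneg (h1 _)] at ha
    exact ha.trans_le (h4 a)
  obtain ⟨u, hu, hm, h⟩ := lp_min T (Pi.single (some none) 1) (Pi.single none 1)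
    (fun u hu => by rw [sz]; exact ((kz u).1 hu).2.1)
    (fun u hu h0 => by rw [sz] at h0 ⊢; exact hs u hu h0)
    ⟨fun o => o.elim (∑ a, |∑ k, g a k|) fun _ => 1, (kz _).2 ⟨fun _ => by simp, by simp,
      fun j => by
        have := one j
        have e : ((∑ k, d j k * 1 : ℕ) : ℤ) = ∑ k, (d j k : ℤ) * 1 := by push_cast; rfl
        simp only [Option.elim]; omega,
      fun a => by
        simp only [Option.elim, mul_one]
        exact (le_abs_self _).trans (single_le_sum (f := fun a => |∑ k, g a k|)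
          (fun _ _ => abs_nonneg _) (mem_univ a))⟩, by rw [sz]; simp⟩
  simp only [sz, sg] at hm h
  obtain ⟨h1, -, h3, h4⟩ := (kz u).1 hu
  have s0 : (0 : ℝ) < u none := by exact_mod_cast hs u hu hm
  have m0 : (0 : ℝ) < u (some none) := by exact_mod_cast hm
  have e : ∀ j, ((∑ k, d j k * (u (some (some k))).toNat : ℕ) : ℤ) =
      ∑ k, (d j k : ℤ) * u (some (some k)) := fun j => by
    push_cast; exact sum_congr rfl fun k _ => by rw [Int.toNat_of_nonneg (h1 k)]
  refine ⟨fun k => (u (some (some k))).toNat, u none / u (some none), div_pos s0 m0, fun j => ?_,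
    fun a j => ?_, fun w m hw h0 hj => ?_⟩
  · have := (hm.trans_le (h3 j)).trans_eq (e j).symm
    exact_mod_cast this
  · simp only [Int.toNat_of_nonneg (h1 _)]
    have a1 : ((∑ k, g a k * u (some (some k)) : ℤ) : ℝ) ≤ u none := by exact_mod_cast h4 a
    have a2 : (u (some none) : ℝ) ≤ (∑ k, d j k * (u (some (some k))).toNat : ℕ) := by
      have := (h3 j).trans (e j).ge
      exact_mod_cast this
    refine a1.trans ?_
    rw [div_mul_eq_mul_div, le_div_iff₀ m0]
    exact mul_le_mul_of_nonneg_left a2 s0.le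
  · obtain ⟨a₀, -⟩ := pos (fun _ => 1) one
    obtain ⟨a, -, ha⟩ := exists_max_image univ (fun a => ∑ k, (g a k : ℝ) * w k) ⟨a₀, mem_univ _⟩
    refine ⟨a, ?_⟩
    have := h (fun o => o.elim (∑ k, (g a k : ℝ) * w k) fun o => o.elim m w)
      ((key ℝ _).2 ⟨hw, h0, hj, fun b => ha b (mem_univ b)⟩)
    simp only [Option.elim] at this
    rw [div_mul_eq_mul_div, div_le_iff₀ m0]
    linarith

end Vale.Agent.P283R.Lp
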