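import Vale.Agent.P283R.Lp.A

/-!
# P283R, block LP: rational dual vectors for subgroups of any rank
-/

namespace Vale.Agent.P283R.Lp

open Filter Finset
open Vale.Agent.P283.H647 (limLat dirichlet)

variable {ι : Type} [Fintype ι]

theorem exists_gen (M : AddSubgroup (ι → ℤ)) : ∃ S : Finset (ι → ℤ), (∀ m ∈ S, m ∈ M) ∧
    ∀ y : ι → ℝ, (∀ m ∈ S, ∑ j, y j * m j = 0) → ∀ m ∈ M, ∑ j, y j * m j = 0 := by
  obtain ⟨S, hS⟩ : (AddSubgroup.toIntSubmodule M).FG := IsNoetherian.noetherian _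
  refine ⟨S, fun m hm => ?_, fun y h3 m hm => ?_⟩
  · have : m ∈ AddSubgroup.toIntSubmodule M := hS ▸ Submodule.subset_span hm
    exact this
  have hm' : m ∈ Submodule.span ℤ (S : Set (ι → ℤ)) := hS ▸ hm
  clear hm
  induction hm' using Submodule.span_induction with
  | mem x hx => exact h3 x hx
  | zero => simp
  | add a b _ _ ha hb => simp only [Pi.add_apply, Int.cast_add, mul_add, sum_add_distrib, ha, hb,
      add_zero]
  | smul c a _ ha =>
    have : ∑ j, y j * ((c • a) j : ℤ) = c * ∑ j, y j * a j := by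
      rw [mul_sum]; exact sum_congr rfl fun j _ => by simp; ring
    rw [this, ha, mul_zero]

/-- a dual vector is close to a rational vector with the same values -/
theorem ratq (M : AddSubgroup (ι → ℤ)) (y : ι → ℝ) (hy : ∀ m ∈ M, ∃ k : ℤ, ∑ j, y j * m j = k)
    {η : ℝ} (hη : 0 < η) : ∃ (r : ℕ) (a : ι → ℤ), 0 < r ∧
      (∀ m ∈ M, ∑ j, (a j / r : ℝ) * m j = ∑ j, y j * m j) ∧ ∀ j, |(a j / r : ℝ) - y j| < η := by
  obtain ⟨S, hS, hS'⟩ := exists_gen M
  let B : ℝ := ∑ m ∈ S, ∑ j, |(m j : ℝ)|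
  have hB : 0 ≤ B := sum_nonneg fun m _ => sum_nonneg fun j _ => abs_nonneg _
  have hη' : 0 < min η (1 / (B + 1)) := lt_min hη (by positivity)
  obtain ⟨r, hr, a, hd⟩ := dirichlet y hη'
  have r1 : (1 : ℝ) ≤ r := by exact_mod_cast hr
  have r0 : (0 : ℝ) < r := by linarith
  refine ⟨r, a, hr, fun m hm => ?_, fun j => ?_⟩
  · have := hS' (fun j => a j / r - y j) (fun m hm => ?_) m hm
    · simp only [sub_mul, sum_sub_distrib] at this
      linarith
    obtain ⟨k, hk⟩ := hy m (hS m hm)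
    have e : ((r * k - ∑ j, a j * m j : ℤ) : ℝ) = ∑ j, (r * y j - a j) * m j := by
      push_cast
      simp only [sub_mul, sum_sub_distrib, mul_assoc, ← mul_sum, hk]
    have l : |((r * k - ∑ j, a j * m j : ℤ) : ℝ)| < 1 := by
      rw [e]
      calc _ ≤ ∑ j, |(r * y j - a j) * m j| := abs_sum_le_sum_abs _ _
        _ ≤ ∑ j, 1 / (B + 1) * |(m j : ℝ)| := sum_le_sum fun j _ => by
          rw [abs_mul]
          exact mul_le_mul_of_nonneg_right ((hd j).le.trans (min_le_right _ _)) (abs_nonneg _)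
        _ = 1 / (B + 1) * ∑ j, |(m j : ℝ)| := (mul_sum _ _ _).symm
        _ ≤ 1 / (B + 1) * B := mul_le_mul_of_nonneg_left
          (single_le_sum (f := fun m : ι → ℤ => ∑ j, |(m j : ℝ)|)
            (fun m _ => sum_nonneg fun j _ => abs_nonneg _) hm) (by positivity)
        _ < 1 := by rw [one_div, inv_mul_lt_iff₀ (by positivity)]; linarith
    have h0 : r * k - ∑ j, a j * m j = 0 := Int.abs_lt_one_iff.1 (by exact_mod_cast l)
    rw [h0, Int.cast_zero] at e
    have e2 : ∑ j, (a j / r - y j) * m j = -(r : ℝ)⁻¹ * ∑ j, (r * y j - a j) * m j := by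
      rw [mul_sum]
      exact sum_congr rfl fun j _ => by field_simp; ring
    rw [e2, ← e, mul_zero]
  · have h1 := (hd j).trans_le (min_le_left _ _)
    have e : (a j / r : ℝ) - y j = -(r * y j - a j) / r := by field_simp; ring
    rw [e, abs_div, abs_neg, abs_of_pos r0, div_lt_iff₀ r0]
    nlinarith

/-- density with rational vectors -/
theorem densq (U : Ultrafilter ℕ) (M : ℕ → AddSubgroup (ι → ℤ)) (z : ι → ℝ)
    (hz : ∀ m ∈ limLat U M, ∑ j, z j * m j = 0) {η : ℝ} (hη : 0 < η) :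
    ∀ᶠ n in U, ∃ (r : ℕ) (a : ι → ℤ), 0 < r ∧ (∀ m ∈ M n, (r : ℤ) ∣ ∑ j, a j * m j) ∧
      (∀ m ∈ limLat U M, ∑ j, a j * m j = 0) ∧ ∀ j, |(a j / r : ℝ) - z j| < η := by
  obtain ⟨S, hS, hS'⟩ := exists_gen (limLat U M)
  have h2 : ∀ᶠ n in U, ∀ m ∈ S, m ∈ M n := (S.eventually_all).2 hS
  filter_upwards [dens U M z hz (half_pos hη), h2] with n ⟨y, h1, h3, h4⟩ h2
  obtain ⟨r, a, hr, h5, h6⟩ := ratq (M n) y h1 (half_pos hη)
  have r0 : (r : ℝ) ≠ 0 := by exact_mod_cast hr.ne'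
  have e : ∀ m : ι → ℤ, ((∑ j, a j * m j : ℤ) : ℝ) = r * ∑ j, (a j / r : ℝ) * m j := fun m => by
    push_cast
    rw [mul_sum]
    exact sum_congr rfl fun j _ => by field_simp
  refine ⟨r, a, hr, fun m hm => ?_, fun m hm => ?_, fun j => ?_⟩
  · obtain ⟨k, hk⟩ := h1 m hm
    refine ⟨k, ?_⟩
    have := e m
    rw [h5 m hm, hk] at this
    exact_mod_cast this
  · have := e m
    rw [hS' (fun j => a j / r) (fun m hm => by rw [h5 m (h2 m hm), h3 m (hS m hm)]) m hm,
      mul_zero] at this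
    exact_mod_cast this
  · have := abs_sub_le (a j / r : ℝ) (y j) (z j)
    linarith [h6 j, h4 j]

end Vale.Agent.P283R.Lp
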